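import Mathlib

/-! Compact operators on `ℓ²(ℕ)`: approximation by corners, adjoints. -/

namespace Vale.Agent.P133K

open InnerProductSpace Filter Topology

/-- the Hilbert space `ℓ²(ℕ)` -/
abbrev L2 : Type := lp (fun _ : ℕ => ℂ) 2

/-- the standard basis vectors of `ℓ²(ℕ)` -/
noncomputable def bv (i : ℕ) : L2 := lp.single 2 i 1

theorem inner_bv (i : ℕ) (f : L2) : inner ℂ (bv i) f = f i := by
  simp [bv, lp.inner_single_left]

theorem bv_apply (i j : ℕ) : bv i j = if j = i then 1 else 0 := by
  simp [bv, lp.single_apply, Pi.single_apply]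

theorem compact_rankOne (x y : L2) : IsCompactOperator (rankOne ℂ x y) :=
  (isCompactOperator_of_locallyCompactSpace_dom (innerSL ℂ y)).clm_comp
    (ContinuousLinearMap.toSpanSingleton ℂ x)

theorem star_rankOne (x y : L2) : star (rankOne ℂ x y) = rankOne ℂ y x := adjoint_rankOne x y

theorem unit_mul (i j k l : ℕ) : rankOne ℂ (bv i) (bv j) * rankOne ℂ (bv k) (bv l) =
    if j = k then rankOne ℂ (bv i) (bv l) else 0 := by
  refine (rankOne_comp_rankOne _ _ _ _).trans ?_
  rw [inner_bv, bv_apply]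
  split_ifs <;> simp

/-- the projection onto the first `n` coordinates -/
noncomputable def pr (n : ℕ) : L2 →L[ℂ] L2 := ∑ i : Fin n, rankOne ℂ (bv i) (bv i)

theorem isStarProjection_pr (n : ℕ) : IsStarProjection (pr n) := by
  refine ⟨?_, ?_⟩
  · show pr n * pr n = pr n
    simp only [pr, Finset.sum_mul, Finset.mul_sum, unit_mul, Fin.val_inj]
    simp
  · show star (pr n) = pr n
    simp only [pr, star_sum, star_rankOne]

theorem compact_pr (n : ℕ) : IsCompactOperator (pr n) :=
  (compactOperator (RingHom.id ℂ) L2 L2).sum_mem fun _ _ => compact_rankOne _ _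

theorem tendsto_pr (f : L2) : Tendsto (fun n => pr n f) atTop (𝓝 f) := by
  have h := (lp.hasSum_single (E := fun _ : ℕ => ℂ) (p := 2) (by simp) f).tendsto_sum_nat
  refine h.congr fun n => ?_
  rw [pr, sum_apply, Finset.sum_range]
  refine Finset.sum_congr rfl fun i _ => ?_
  rw [rankOne_apply, inner_bv, bv, ← lp.single_smul, smul_eq_mul, mul_one]

theorem tail_mul {K : L2 →L[ℂ] L2} (hK : IsCompactOperator K) {δ : ℝ} (hδ : 0 < δ) :
    ∀ᶠ n in atTop, ‖(1 - pr n) * K‖ ≤ δ := by
  have h3 : TotallyBounded (K '' Metric.closedBall 0 1) :=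
    (IsCompactOperator.isCompact_closure_image_closedBall (f := (K : L2 →ₗ[ℂ] L2)) hK
      1).totallyBounded.subset subset_closure
  obtain ⟨t, ht, hcov⟩ := Metric.totallyBounded_iff.1 h3 (δ / 2) (by positivity)
  have hex : ∀ y ∈ t, ∀ᶠ n in atTop, dist (pr n y) y < δ / 2 := fun y _ =>
    Metric.tendsto_nhds.1 (tendsto_pr y) _ (by positivity)
  filter_upwards [(eventually_all_finite ht).2 hex] with n hn
  refine ContinuousLinearMap.opNorm_le_of_unit_norm hδ.le fun f hf => ?_
  have hf' := hcov ⟨f, by rw [mem_closedBall_zero_iff, hf], rfl⟩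
  simp only [Set.mem_iUnion, Metric.mem_ball, exists_prop] at hf'
  obtain ⟨y, hy, hfy⟩ := hf'
  have h4 := hn y hy
  have h5 : ‖(1 - pr n) (K f - y)‖ ≤ 1 * ‖K f - y‖ :=
    (1 - pr n).le_of_opNorm_le (isStarProjection_pr n).one_sub.norm_le _
  have h6 : ((1 - pr n) * K) f = (1 - pr n) (K f - y) + (y - pr n y) := by
    rw [map_sub]
    simp
  rw [dist_eq_norm] at hfy
  rw [dist_comm, dist_eq_norm] at h4
  rw [h6]
  linarith [norm_add_le ((1 - pr n) (K f - y)) (y - pr n y)]

theorem mul_tail {K : L2 →L[ℂ] L2} (hK : IsCompactOperator K) {δ : ℝ} (hδ : 0 < δ) :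
    ∀ᶠ n in atTop, ‖star K * (1 - pr n)‖ ≤ δ := by
  filter_upwards [tail_mul hK hδ] with n hn
  rwa [← norm_star, star_mul, (isStarProjection_pr n).one_sub.isSelfAdjoint.star_eq] at hn

/-- The adjoint of a compact operator is compact. -/
theorem compact_star {K : L2 →L[ℂ] L2} (hK : IsCompactOperator K) :
    IsCompactOperator (star K : L2 →L[ℂ] L2) := by
  refine isCompactOperator_of_tendsto (l := atTop) (F := fun n => star K * pr n) ?_
    (Eventually.of_forall fun n => (compact_pr n).clm_comp (star K))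
  refine Metric.tendsto_nhds.2 fun ε hε => ?_
  filter_upwards [mul_tail hK (half_pos hε)] with n hn
  rw [dist_comm, dist_eq_norm]
  rw [mul_sub, mul_one] at hn
  linarith

/-- Compact operators are limits of their corners. -/
theorem tendsto_corner {K : L2 →L[ℂ] L2} (hK : IsCompactOperator K) :
    Tendsto (fun n => pr n * K * pr n) atTop (𝓝 K) := by
  refine Metric.tendsto_nhds.2 fun ε hε => ?_
  filter_upwards [tail_mul hK (show 0 < ε / 3 by positivity),
    mul_tail (compact_star hK) (show 0 < ε / 3 by positivity)] with n h1 h2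
  rw [star_star] at h2
  have h : K - pr n * K * pr n = (1 - pr n) * K + pr n * (K * (1 - pr n)) := by noncomm_ring
  have h4 : ‖pr n * (K * (1 - pr n))‖ ≤ 1 * (ε / 3) := (norm_mul_le _ _).trans
    (mul_le_mul (isStarProjection_pr n).norm_le h2 (norm_nonneg _) zero_le_one)
  rw [dist_comm, dist_eq_norm, h]
  linarith [norm_add_le ((1 - pr n) * K) (pr n * (K * (1 - pr n)))]

theorem corner_eq (K : L2 →L[ℂ] L2) (n : ℕ) : pr n * K * pr n =
    ∑ i : Fin n, ∑ j : Fin n, (K (bv j) i) • rankOne ℂ (bv i) (bv j) := by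
  simp only [pr, Finset.sum_mul, Finset.mul_sum]
  rw [Finset.sum_comm]
  refine Finset.sum_congr rfl fun i _ => Finset.sum_congr rfl fun j _ => ?_
  refine ContinuousLinearMap.ext fun f => ?_
  simp [inner_bv, smul_smul, mul_comm]

end Vale.Agent.P133K
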