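import Vale.Agent.P133K90.Defs
import Vale.Agent.P133F.Defs

/-! Cuntz comparison in `C ⊗ 𝒦` is Cuntz comparison by matrices. -/

namespace Vale.Agent.P133K

open InnerProductSpace Filter Topology Vale.Agent.P133.Statement Vale.Agent.P133F
open scoped TensorProduct

universe u v

variable {C : Type u} {B : Type v} [NonUnitalCStarAlgebra C] [NonUnitalCStarAlgebra B]
  {T : C →ₗ[ℂ] Compacts →ₗ[ℂ] B}

theorem unit_mul_unit (i j k l : ℕ) : unit i j * unit k l = if j = k then unit i l else 0 := by
  refine Subtype.ext ((unit_mul i j k l).trans ?_)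
  split_ifs <;> rfl

theorem star_unit (i j : ℕ) : star (unit i j) = unit j i := Subtype.ext (star_rankOne _ _)

theorem isClosed_compacts : IsClosed (Compacts : Set (L2 →L[ℂ] L2)) :=
  isClosed_setOfPred_isCompactOperator

theorem continuous_of_mul {K : Type*} [NonUnitalCStarAlgebra K] (f g : K →ₗ[ℂ] B)
    (h : ∀ k, f (star k * k) = star (g k) * g k) : Continuous g := by
  let _ := CStarAlgebra.spectralOrder K
  have _ := CStarAlgebra.spectralOrderedRing K
  let _ := CStarAlgebra.spectralOrder B
  have _ := CStarAlgebra.spectralOrderedRing B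
  obtain ⟨c, hc⟩ := (PositiveLinearMap.mk₀ f fun k hk => by
    obtain ⟨m, rfl⟩ := CStarAlgebra.nonneg_iff_eq_star_mul_self.1 hk
    rw [h]
    exact star_mul_self_nonneg _).exists_norm_apply_le
  refine AddMonoidHomClass.continuous_of_bound g (√c) fun k => ?_
  have h2 : ‖f (star k * k)‖ ≤ c * ‖star k * k‖ := hc (star k * k)
  rw [h, CStarRing.norm_star_mul_self, CStarRing.norm_star_mul_self] at h2
  refine (sq_le_sq₀ (norm_nonneg _) (by positivity)).1 ?_
  rw [mul_pow, Real.sq_sqrt c.coe_nonneg, sq, sq]
  exact h2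

/-- the elementary tensors depend continuously on the compact operator -/
theorem IsStabilization.continuous (hT : IsStabilization T) (a : C) : Continuous (T a) := by
  have := isClosed_compacts
  exact continuous_of_mul (K := Compacts) (T (star a * a)) (T a) fun k => by
    rw [hT.map_mul, hT.map_star]

/-- padding by zeros -/
def padTo (N : ℕ) {k : ℕ} (M : Matrix (Fin k) (Fin k) C) : Matrix (Fin N) (Fin N) C :=
  fun i j => if h : (i : ℕ) < k ∧ (j : ℕ) < k then M ⟨i, h.1⟩ ⟨j, h.2⟩ else 0

theorem corner_padTo {N k : ℕ} (h : k ≤ N) (M : Matrix (Fin k) (Fin k) C) :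
    corner T (padTo N M) = corner T M := by
  obtain ⟨n, rfl⟩ := Nat.exists_eq_add_of_le h
  simp [corner, padTo, Fin.sum_univ_add]

theorem corner_add {n : ℕ} (M M' : Matrix (Fin n) (Fin n) C) :
    corner T (M + M') = corner T M + corner T M' := by
  simp [corner, Finset.sum_add_distrib]

theorem corner_blocks {k l : ℕ} (M : Matrix (Fin k) (Fin k) C) (N : Matrix (Fin l) (Fin l) C) :
    corner T (Matrix.reindex finSumFinEquiv finSumFinEquiv (Matrix.fromBlocks M 0 0 N)) =
      corner T M + ∑ i, ∑ j, T (N i j) (unit (k + i) (k + j)) := by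
  simp [corner, Fin.sum_univ_add]

theorem IsStabilization.dense_corner (hT : IsStabilization T) :
    Dense {b : B | ∃ (n : ℕ) (M : Matrix (Fin n) (Fin n) C), corner T M = b} := by
  let S : AddSubmonoid B :=
    { carrier := {b : B | ∃ (n : ℕ) (M : Matrix (Fin n) (Fin n) C), corner T M = b}
      zero_mem' := ⟨0, 0, by simp [corner]⟩
      add_mem' := by
        rintro _ _ ⟨n, M, rfl⟩ ⟨m, M', rfl⟩
        exact ⟨n + m, padTo _ M + padTo _ M', by
          rw [corner_add, corner_padTo (by omega), corner_padTo (by omega)]⟩ }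
  have h1 : ∀ x : C ⊗[ℂ] Compacts, TensorProduct.lift T x ∈ S.topologicalClosure := fun x => by
    induction x with
    | zero => simp
    | add x y hx hy => rw [map_add]; exact add_mem hx hy
    | tmul a k =>
      let w : ℕ → Compacts := fun n => ∑ i : Fin n, ∑ j : Fin n, (k.1 (bv j) i) • unit i j
      have h2 : Tendsto w atTop (𝓝 k) := by
        refine tendsto_subtype_rng.2 ((tendsto_corner k.2).congr fun n => ?_)
        rw [corner_eq]
        simp only [w, AddSubmonoidClass.coe_finsetSum]
        rfl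
      refine mem_closure_of_tendsto (((hT.continuous a).tendsto k).comp h2)
        (Eventually.of_forall fun n => ⟨n, fun i j => (k.1 (bv j) i) • a, ?_⟩)
      simp [corner, w]
  refine dense_closure.1 (hT.dense.mono ?_)
  rintro _ ⟨x, rfl⟩
  exact h1 x

theorem IsStabilization.corner_eq_zero (hT : IsStabilization T) {n : ℕ}
    {M : Matrix (Fin n) (Fin n) C} (h : corner T M = 0) : M = 0 := by
  have h1 : (∑ i, ∑ j, M i j ⊗ₜ[ℂ] unit i j : C ⊗[ℂ] Compacts) = 0 :=
    hT.injective (by simpa [corner] using h)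
  ext i j
  let ω : Compacts →ₗ[ℂ] ℂ :=
    { toFun := fun k => k.1 (bv j) i
      map_add' := fun k k' => rfl
      map_smul' := fun c k => rfl }
  have h2 : ∀ i' j' : Fin n, ω (unit i' j') = if i' = i ∧ j' = j then 1 else 0 := fun i' j' => by
    show inner ℂ (bv j') (bv j) * bv i' i = _
    simp only [inner_bv, bv_apply, Fin.val_inj, @eq_comm _ i i']
    by_cases h₁ : i' = i <;> by_cases h₂ : j' = j <;> simp [h₁, h₂]
  have h3 := congrArg (fun x => TensorProduct.rid ℂ C (LinearMap.lTensor C ω x)) h1
  simpa [h2, ite_and] using h3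

/-- the corner embedding as a *-homomorphism -/
noncomputable def IsStabilization.hom (hT : IsStabilization T) (n : ℕ) :
    CStarMatrix (Fin n) (Fin n) C →⋆ₙₐ[ℂ] B where
  toFun M := corner T (CStarMatrix.ofMatrix.symm M)
  map_smul' c M := by simp [corner, Finset.smul_sum]
  map_zero' := by simp [corner]
  map_add' M M' := corner_add _ _
  map_mul' M M' := by
    simp only [corner, CStarMatrix.ofMatrix_symm_apply, CStarMatrix.mul_apply, map_sum,
      LinearMap.sum_apply, Finset.sum_mul]
    refine Finset.sum_congr rfl fun i _ => ?_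
    rw [Finset.sum_comm]
    refine Finset.sum_congr rfl fun j _ => ?_
    simp only [Finset.mul_sum, ← hT.map_mul, unit_mul_unit, Fin.val_inj, apply_ite (T _), map_zero]
    rw [Finset.sum_comm]
    simp
  map_star' M := by
    simp only [corner, CStarMatrix.ofMatrix_symm_apply, CStarMatrix.star_apply, star_sum,
      ← hT.map_star, star_unit]
    exact Finset.sum_comm

theorem IsStabilization.hom_pad (hT : IsStabilization T) {k : ℕ} (n : ℕ)
    (M : CStarMatrix (Fin k) (Fin k) C) : hT.hom (k + n) (pad n M) = hT.hom k M :=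
  corner_padTo (Nat.le_add_right k n) _

variable [PartialOrder C] [StarOrderedRing C]

theorem IsStabilization.norm_hom (hT : IsStabilization T) {n : ℕ}
    (M : CStarMatrix (Fin n) (Fin n) C) : ‖hT.hom n M‖ = ‖M‖ :=
  NonUnitalStarAlgHom.norm_map (hT.hom n)
    ((injective_iff_map_eq_zero (hT.hom n)).2 fun N h =>
      hT.corner_eq_zero (M := CStarMatrix.ofMatrix.symm N) h) M

theorem IsStabilization.cuntz_iff (hT : IsStabilization T) {k : ℕ}
    (u v : CStarMatrix (Fin k) (Fin k) C) : Cuntz (hT.hom k u) (hT.hom k v) ↔ CuntzLE u v := by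
  have key : ∀ (n : ℕ) (x : CStarMatrix (Fin (k + n)) (Fin (k + n)) C),
      ‖star x * pad n v * x - pad n u‖ =
        ‖star (hT.hom _ x) * hT.hom k v * hT.hom _ x - hT.hom k u‖ := fun n x => by
    rw [← hT.norm_hom, map_sub, _root_.map_mul, _root_.map_mul, StarHomClass.map_star, hT.hom_pad,
      hT.hom_pad]
  constructor
  · rintro ⟨x, hx⟩ ε hε
    have ho : IsOpen {y : B | ‖star y * hT.hom k v * y - hT.hom k u‖ < ε} :=
      isOpen_lt (by fun_prop) continuous_const
    obtain ⟨j, hj⟩ := (hx.eventually (gt_mem_nhds hε)).exists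
    obtain ⟨_, ⟨n, M, rfl⟩, h⟩ := hT.dense_corner.exists_mem_open ho ⟨x j, hj⟩
    refine ⟨n, CStarMatrix.ofMatrix (padTo _ M), ?_⟩
    rw [key, show hT.hom (k + n) (CStarMatrix.ofMatrix (padTo _ M)) = corner T M from
      corner_padTo (Nat.le_add_left n k) M]
    exact h
  · intro h
    choose n x hx using fun j : ℕ => h (1 / ((j : ℝ) + 1)) Nat.one_div_pos_of_nat
    exact ⟨fun j => hT.hom _ (x j), squeeze_zero (fun _ => norm_nonneg _)
      (fun j => ((key _ _).symm.trans_lt (hx j)).le) tendsto_one_div_add_atTop_nhds_zero_nat⟩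

theorem IsStabilization.properlyInf_iff (hT : IsStabilization T) {k : ℕ}
    (h : Matrix (Fin k) (Fin k) C) :
    ProperlyInf T h ↔ ProperlyInfiniteMat (CStarMatrix.ofMatrix h) := by
  rw [ProperlyInfiniteMat, ← hT.cuntz_iff]
  have h1 : hT.hom (k + k) (dsum (CStarMatrix.ofMatrix h) 0) = corner T h := by
    exact (corner_blocks h 0).trans (by simp)
  rw [h1]
  rfl

theorem IsStabilization.pi_iff (hT : IsStabilization T) : PI T ↔ PurelyInfinite C := by
  refine forall₂_congr fun h _ => ?_
  rw [ProperlyInfinite, ← hT.cuntz_iff]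
  have h1 : hT.hom 2 (CStarMatrix.ofMatrix !![h, 0; 0, h]) = corner T (double !![h]) := by
    rw [double, corner_blocks]
    simp [IsStabilization.hom, corner]
  have h2 : hT.hom 2 (CStarMatrix.ofMatrix !![h, 0; 0, 0]) = corner T !![h] := by
    simp [IsStabilization.hom, corner]
  rw [h1, h2]
  rfl

theorem IsStabilization.wpi_iff (hT : IsStabilization T) : WPI T ↔ WeaklyPurelyInfinite C :=
  exists_congr fun _ => and_congr_right fun _ => forall₂_congr fun _ _ => hT.properlyInf_iff _

end Vale.Agent.P133K
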