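import Vale.Agent.P133K90.Cpt

/-!
# P133: Cuntz comparison in `C ⊗ 𝒦`, word for word as in the problem

`𝒦` is the algebra of the compact operators on `ℓ²(ℕ)`, `C ⊗ 𝒦` is a C*-completion of the algebraic
tensor product, and a matrix `(a_ij)` over `C` is the element `∑ a_ij ⊗ e_ij` of `C ⊗ 𝒦`.
-/

namespace Vale.Agent.P133K

open InnerProductSpace Filter Topology

universe u v

/-- `𝒦`: the compact operators on `ℓ²(ℕ)`. -/
def Compacts : NonUnitalStarSubalgebra ℂ (L2 →L[ℂ] L2) where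
  carrier := {T | IsCompactOperator T}
  add_mem' hS hT := IsCompactOperator.add hS hT
  zero_mem' := isCompactOperator_zero
  mul_mem' {S _} _ hT := IsCompactOperator.clm_comp hT S
  smul_mem' c _ hT := IsCompactOperator.smul hT c
  star_mem' hT := compact_star hT

/-- The matrix units `e_ij = |δ_i⟩⟨δ_j|` of `𝒦`. -/
noncomputable def unit (i j : ℕ) : Compacts := ⟨rankOne ℂ (bv i) (bv j), compact_rankOne _ _⟩

variable {C : Type u} {B : Type v} [NonUnitalCStarAlgebra C] [NonUnitalCStarAlgebra B]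

/-- The C*-algebra `B` is `C ⊗ 𝒦`, with `T a k = a ⊗ k`: the map from the algebraic tensor product
to `B` is an injective *-homomorphism with dense range. -/
structure IsStabilization (T : C →ₗ[ℂ] Compacts →ₗ[ℂ] B) : Prop where
  map_mul : ∀ a a' k k', T (a * a') (k * k') = T a k * T a' k'
  map_star : ∀ a k, T (star a) (star k) = star (T a k)
  injective : Function.Injective (TensorProduct.lift T)
  dense : DenseRange (TensorProduct.lift T)

/-- Cuntz comparison `u ≾ v` in `B = C ⊗ 𝒦`: there are `x_j ∈ B` with `‖x_j* v x_j - u‖ → 0`. -/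
def Cuntz (u v : B) : Prop :=
  ∃ x : ℕ → B, Tendsto (fun j => ‖star (x j) * v * x j - u‖) atTop (𝓝 0)

/-- A matrix over `C` in the upper-left corner of `C ⊗ 𝒦`. -/
noncomputable def corner (T : C →ₗ[ℂ] Compacts →ₗ[ℂ] B) {n : ℕ} (M : Matrix (Fin n) (Fin n) C) :
    B :=
  ∑ i, ∑ j, T (M i j) (unit i j)

/-- `h ⊕ h = diag (h, h)`. -/
def double {n : ℕ} (h : Matrix (Fin n) (Fin n) C) : Matrix (Fin (n + n)) (Fin (n + n)) C :=
  Matrix.reindex finSumFinEquiv finSumFinEquiv (Matrix.fromBlocks h 0 0 h)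

/-- `h` is properly infinite: `h ⊕ h ≾ h`. -/
def ProperlyInf (T : C →ₗ[ℂ] Compacts →ₗ[ℂ] B) {n : ℕ} (h : Matrix (Fin n) (Fin n) C) : Prop :=
  Cuntz (corner T (double h)) (corner T h)

variable [PartialOrder C]

/-- `C` is purely infinite: every `h ∈ C₊` is properly infinite. -/
def PI (T : C →ₗ[ℂ] Compacts →ₗ[ℂ] B) : Prop := ∀ h : C, 0 ≤ h → ProperlyInf T !![h]

/-- `C` is weakly purely infinite: for some `n ≥ 1` the amplification `diag (h, …, h) ∈ M_n(C)` of
each `h ∈ C₊` is properly infinite. -/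
def WPI (T : C →ₗ[ℂ] Compacts →ₗ[ℂ] B) : Prop :=
  ∃ n : ℕ, 1 ≤ n ∧ ∀ h : C, 0 ≤ h → ProperlyInf T (Matrix.diagonal fun _ : Fin n => h)

end Vale.Agent.P133K
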