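import Mathlib
import Vale.Agent.P133Z.TDefs

/-!
# P133: Cuntz comparison in `C ⊗ 𝒦`, word for word as in the problem

`𝒦` is the C*-algebra of the compact operators on `ℓ²(ℕ)`, `C ⊗ 𝒦` is a C*-completion of the
algebraic tensor product, and a matrix `(a_ij)` over `C` is the element `∑ a_ij ⊗ e_ij` of `C ⊗ 𝒦`.
-/

namespace Vale.Agent.P133KS

open Filter Topology Vale.Agent.P133Z

universe u v

variable {C : Type u} {B : Type v} {K : Type} [NonUnitalCStarAlgebra C] [NonUnitalCStarAlgebra B]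
  [NonUnitalCStarAlgebra K]

/-- `K` is *-isomorphic to the algebra of the compact operators on `H`, and `e i j` is the operator
`x ↦ ⟪b j, x⟫ b i`. -/
def CompactsOn {H : Type} [NormedAddCommGroup H] [InnerProductSpace ℂ H] [CompleteSpace H]
    (b : ℕ → H) (e : ℕ → ℕ → K) : Prop :=
  ∃ ρ : Rep K H, Function.Injective ρ ∧ (∀ S : H →L[ℂ] H, IsCompactOperator S ↔ ∃ k, ρ k = S) ∧
    ∀ i j x, ρ (e i j) x = inner ℂ (b j) x • b i

/-- `K` is `𝒦`, the compact operators on `ℓ²(ℕ)`, and the `e i j` are its matrix units for the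
standard basis. -/
def IsCompacts (e : ℕ → ℕ → K) : Prop :=
  CompactsOn (H := lp (fun _ : ℕ => ℂ) 2) (fun i => lp.single 2 i 1) e

/-- The C*-algebra `B` is `C ⊗ K`, with `T a k = a ⊗ k`: the map from the algebraic tensor product
to `B` is an injective *-homomorphism with dense range. -/
structure IsStabilization (T : C →ₗ[ℂ] K →ₗ[ℂ] B) : Prop where
  map_mul : ∀ a a' k k', T (a * a') (k * k') = T a k * T a' k'
  map_star : ∀ a k, T (star a) (star k) = star (T a k)
  injective : Function.Injective (TensorProduct.lift T)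
  dense : DenseRange (TensorProduct.lift T)

/-- Cuntz comparison `u ≾ v` in `B = C ⊗ 𝒦`: there are `x_j ∈ B` with `‖x_j* v x_j - u‖ → 0`. -/
def Cuntz (u v : B) : Prop :=
  ∃ x : ℕ → B, Tendsto (fun j => ‖star (x j) * v * x j - u‖) atTop (𝓝 0)

variable (T : C →ₗ[ℂ] K →ₗ[ℂ] B) (e : ℕ → ℕ → K)

/-- A matrix over `C` in the upper-left corner of `C ⊗ 𝒦`. -/
def corner {n : ℕ} (M : Matrix (Fin n) (Fin n) C) : B := ∑ i, ∑ j, T (M i j) (e i j)

/-- `h ⊕ h = diag (h, h)`. -/
def double {n : ℕ} (h : Matrix (Fin n) (Fin n) C) : Matrix (Fin (n + n)) (Fin (n + n)) C :=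
  Matrix.reindex finSumFinEquiv finSumFinEquiv (Matrix.fromBlocks h 0 0 h)

/-- `h` is properly infinite: `h ⊕ h ≾ h`. -/
def ProperlyInf {n : ℕ} (h : Matrix (Fin n) (Fin n) C) : Prop :=
  Cuntz (corner T e (double h)) (corner T e h)

variable [PartialOrder C]

/-- `C` is purely infinite: every `h ∈ C₊` is properly infinite. -/
def PI : Prop := ∀ h : C, 0 ≤ h → ProperlyInf T e !![h]

/-- `C` is weakly purely infinite: for some `n ≥ 1` the amplification `diag (h, …, h) ∈ M_n(C)` of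
each `h ∈ C₊` is properly infinite. -/
def WPI : Prop :=
  ∃ n : ℕ, 1 ≤ n ∧ ∀ h : C, 0 ≤ h → ProperlyInf T e (Matrix.diagonal fun _ : Fin n => h)

end Vale.Agent.P133KS
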