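import Vale.Agent.P133K90.Main
import Vale.Agent.P133K90.St

/-! The main theorem for an abstract copy of the compact operators. -/

namespace Vale.Agent.P133KS

open Vale.Agent.P133.Statement Vale.Agent.P133Z
open scoped TensorProduct

universe u v w

theorem lift_compl {C B K K' : Type*} [AddCommGroup C] [Module ℂ C] [AddCommGroup B] [Module ℂ B]
    [AddCommGroup K] [Module ℂ K] [AddCommGroup K'] [Module ℂ K'] (φ : K ≃ₗ[ℂ] K')
    (T : C →ₗ[ℂ] K' →ₗ[ℂ] B) :
    ⇑(TensorProduct.lift (T.compl₂ φ.toLinearMap)) = TensorProduct.lift T ∘ φ.lTensor C := by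
  have : TensorProduct.lift (T.compl₂ φ.toLinearMap) =
      TensorProduct.lift T ∘ₗ (φ.lTensor C).toLinearMap := TensorProduct.ext' fun _ _ => rfl
  rw [this]
  rfl

variable {K : Type} [NonUnitalCStarAlgebra K] {e : ℕ → ℕ → K}

theorem IsCompacts.exists_equiv (h : IsCompacts e) : ∃ φ : K ≃ₗ[ℂ] P133K.Compacts,
    (∀ a b, φ (a * b) = φ a * φ b) ∧ (∀ a, φ (star a) = star (φ a)) ∧
      ∀ i j, φ (e i j) = P133K.unit i j := by
  obtain ⟨ρ, h1, h2, h3⟩ := h
  let f : K →ₗ[ℂ] P133K.Compacts :=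
    { toFun := fun k => ⟨ρ k, (h2 _).2 ⟨k, rfl⟩⟩
      map_add' := fun a b => Subtype.ext (map_add ρ a b)
      map_smul' := fun c a => Subtype.ext (map_smul ρ c a) }
  have hf : Function.Bijective f := ⟨fun a b hab => h1 (congrArg Subtype.val hab), fun S => by
    obtain ⟨k, hk⟩ := (h2 S.1).1 S.2
    exact ⟨k, Subtype.ext hk⟩⟩
  exact ⟨LinearEquiv.ofBijective f hf, fun a b => Subtype.ext (map_mul ρ a b),
    fun a => Subtype.ext (map_star ρ a),
    fun i j => Subtype.ext (ContinuousLinearMap.ext fun x => h3 i j x)⟩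

theorem exists_compacts :
    ∃ (K : Type) (_ : NonUnitalCStarAlgebra K) (e : ℕ → ℕ → K), IsCompacts e := by
  have := P133K.isClosed_compacts
  exact ⟨P133K.Compacts, NonUnitalStarSubalgebra.nonUnitalCStarAlgebra _, P133K.unit,
    NonUnitalStarSubalgebraClass.subtype P133K.Compacts, Subtype.val_injective,
    fun S => ⟨fun hS => ⟨⟨S, hS⟩, rfl⟩, by rintro ⟨k, rfl⟩; exact k.2⟩, fun _ _ _ => rfl⟩

theorem main (C : Type u) [NonUnitalCStarAlgebra C] [PartialOrder C] [StarOrderedRing C] :
    (∃ (K : Type) (_ : NonUnitalCStarAlgebra K) (e : ℕ → ℕ → K), IsCompacts e) ∧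
    ∀ (K : Type) [NonUnitalCStarAlgebra K] (e : ℕ → ℕ → K), IsCompacts e →
      (∃ (B : Type u) (_ : NonUnitalCStarAlgebra B) (T : C →ₗ[ℂ] K →ₗ[ℂ] B), IsStabilization T) ∧
      ∀ (B : Type v) [NonUnitalCStarAlgebra B] (T : C →ₗ[ℂ] K →ₗ[ℂ] B), IsStabilization T →
        (PI T e ↔ StronglyPurelyInfinite C) ∧
        (IsExact C → (WPI T e ↔ PI T e)) ∧
        ∀ (D : Type w) [NonUnitalCStarAlgebra D] [PartialOrder D] [StarOrderedRing D]
          (ι : C →⋆ₙₐ[ℂ] D), Function.Injective ι → IsNuclearMap ι → (WPI T e ↔ PI T e) := by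
  refine ⟨exists_compacts, fun K _ e he => ?_⟩
  obtain ⟨φ, hm, hs, hu⟩ := he.exists_equiv
  refine ⟨?_, fun B _ T hT => ?_⟩
  · obtain ⟨B, _, T, hT⟩ := P133K.exists_stabilization C
    refine ⟨B, inferInstance, T.compl₂ φ.toLinearMap, fun a a' k k' => ?_, fun a k => ?_, ?_, ?_⟩
    · exact (congrArg (T (a * a')) (hm k k')).trans (hT.map_mul a a' _ _)
    · exact (congrArg (T (star a)) (hs k)).trans (hT.map_star a _)
    · rw [lift_compl]
      exact hT.injective.comp (φ.lTensor C).injective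
    · rw [lift_compl]
      exact hT.dense.mono (by rw [(φ.lTensor C).surjective.range_comp])
  · have hT' : P133K.IsStabilization (T.compl₂ φ.symm.toLinearMap) := by
      refine ⟨fun a a' k k' => ?_, fun a k => ?_, ?_, ?_⟩
      · refine (congrArg (T (a * a')) (φ.injective ?_)).trans (hT.map_mul a a' (φ.symm k) (φ.symm k'))
        rw [hm]
        simp
      · refine (congrArg (T (star a)) (φ.injective ?_)).trans (hT.map_star a (φ.symm k))
        rw [hs]
        simp
      · rw [lift_compl]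
        exact hT.injective.comp (φ.symm.lTensor C).injective
      · rw [lift_compl]
        exact hT.dense.mono (by rw [(φ.symm.lTensor C).surjective.range_comp])
    have hc : ∀ {n : ℕ} (M : Matrix (Fin n) (Fin n) C),
        P133K.corner (T.compl₂ φ.symm.toLinearMap) M = corner T e M := fun M =>
      Finset.sum_congr rfl fun i _ => Finset.sum_congr rfl fun j _ =>
        congrArg (T (M i j)) (φ.symm_apply_eq.2 (hu i j).symm)
    have hp : ∀ {n : ℕ} (M : Matrix (Fin n) (Fin n) C),
        P133K.ProperlyInf (T.compl₂ φ.symm.toLinearMap) M ↔ ProperlyInf T e M := fun M => by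
      rw [P133K.ProperlyInf, hc, hc]
      exact Iff.rfl
    have h1 : P133K.PI (T.compl₂ φ.symm.toLinearMap) ↔ PI T e :=
      forall_congr' fun h => imp_congr_right fun _ => hp _
    have h2 : P133K.WPI (T.compl₂ φ.symm.toLinearMap) ↔ WPI T e :=
      exists_congr fun n => and_congr_right fun _ =>
        forall_congr' fun h => imp_congr_right fun _ => hp _
    rw [← h1, ← h2]
    exact (P133K.main.{u, v, w} C).2 B _ hT'

end Vale.Agent.P133KS
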